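import Vale.Agent.P204.Gen.Core
import Vale.Agent.P204.Gen.Congr

/-!
P204, general four-manifold, module AvgRep: the law of one random translation, maps close to the
identity on `ℝ⁴`, and pull-backs of two-forms by linear maps.
-/

open MeasureTheory
open scoped ENNReal NNReal

namespace Vale.Agent.P204.Gen.AvgAux

open Vale.Agent.P204.Torus

/-! ## Forms -/

lemma pull_comp (A B : V →L[ℝ] V) (β : Form) : pull A (pull B β) = pull (B.comp A) β :=
  form_ext fun u v => by simp [ev_pull]

lemma pull_one (β : Form) : pull (1 : V →L[ℝ] V) β = β :=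
  form_ext fun u v => by simp [ev_pull]

lemma pull_zero (A : V →L[ℝ] V) : pull A (0 : Form) = 0 :=
  form_ext fun u v => by simp [ev_pull, ev_zero]

lemma norm_pull_le (A : V →L[ℝ] V) (β : Form) : ‖pull A β‖ ≤ 72 * ‖A‖ ^ 2 * ‖β‖ := by
  refine (norm_le_of_ev (K := 12 * ‖A‖ ^ 2 * ‖β‖) fun i j => ?_).trans (le_of_eq (by ring))
  rw [ev_pull]
  refine (abs_ev_le _ _ _).trans ?_
  have h : ∀ i, ‖A (e i)‖ ≤ ‖A‖ := fun i => by
    have := A.le_opNorm (e i)
    rwa [norm_e, mul_one] at this
  calc 12 * (‖β‖ * (‖A (e i)‖ * ‖A (e j)‖)) ≤ 12 * (‖β‖ * (‖A‖ * ‖A‖)) := by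
        gcongr <;> exact h _
    _ = _ := by ring

/-- The pull-back by a fixed map, as a continuous linear map. -/
noncomputable def pullC (A : V →L[ℝ] V) : Form →L[ℝ] Form :=
  LinearMap.toContinuousLinearMap
    { toFun := pull A
      map_add' := pull_add A
      map_smul' := pull_smul A }

lemma pullC_apply (A : V →L[ℝ] V) (β : Form) : pullC A β = pull A β := rfl

lemma continuous_pull : Continuous fun p : (V →L[ℝ] V) × Form => pull p.1 p.2 := by
  refine (PiLp.continuous_toLp 2 _).comp (continuous_pi fun k => ?_)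
  have h1 : ∀ j, Continuous fun p : (V →L[ℝ] V) × Form => p.2 j := fun j =>
    (PiLp.continuous_apply 2 _ j).comp continuous_snd
  have h2 : ∀ i j, Continuous fun p : (V →L[ℝ] V) × Form => p.1 (e i) j := fun i j =>
    (continuous_apply j).comp (continuous_fst.clm_apply continuous_const)
  exact continuous_finsetSum _ fun j _ =>
    (h1 j).mul (((h2 _ _).mul (h2 _ _)).sub ((h2 _ _).mul (h2 _ _)))

lemma measurable_pull {α : Type*} [MeasurableSpace α] {A : α → V →L[ℝ] V} {B : α → Form}
    (hA : Measurable A) (hB : Measurable B) : Measurable fun a => pull (A a) (B a) :=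
  continuous_pull.measurable.comp (hA.prodMk hB)

/-- A bounded measurable field on a finite measure space is integrable. -/
lemma integrable_bdd {α : Type*} [MeasurableSpace α] {μ : Measure α} [IsFiniteMeasure μ]
    {g : α → Form} (hg : Measurable g) {K : ℝ} (hb : ∀ᵐ a ∂μ, ‖g a‖ ≤ K) : Integrable g μ :=
  (integrable_const K).mono' hg.aestronglyMeasurable hb

/-! ## The law of one translation -/

/-- The normalising constant of the bump. -/
noncomputable def kap0 : ℝ := (∫ t, (bump : V → ℝ) t)⁻¹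

lemma kap0_pos : 0 < kap0 := inv_pos.2 bump.integral_pos

lemma rho_eq (ε : ℝ) (t : V) : rho ε t = kap0 / ε ^ 4 * bump (ε⁻¹ • t) := by
  rw [rho, ContDiffBump.normed_def, kap0]
  field_simp

lemma rho_nonneg (ε : ℝ) (t : V) : 0 ≤ rho ε t :=
  mul_nonneg (inv_nonneg.2 (by positivity)) (bump.nonneg_normed _)

lemma rho_le (ε : ℝ) (t : V) : rho ε t ≤ kap0 / ε ^ 4 := by
  rw [rho_eq]
  exact mul_le_of_le_one_right (div_nonneg kap0_pos.le (by positivity)) bump.le_one

lemma rho_of_small {ε : ℝ} (hε : 0 < ε) {t : V} (ht : ‖t‖ ≤ ε / 2) :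
    rho ε t = kap0 / ε ^ 4 := by
  rw [rho_eq, bump.one_of_mem_closedBall ?_, mul_one]
  rw [mem_closedBall_zero_iff, norm_smul, Real.norm_eq_abs, abs_of_pos (inv_pos.2 hε),
    inv_mul_le_iff₀ hε]
  change ‖t‖ ≤ ε * (1 / 2)
  linarith

lemma rho_zero_of_lt {ε : ℝ} (hε : 0 < ε) {t : V} (ht : ε < ‖t‖) : rho ε t = 0 := by
  have : bump.normed volume (ε⁻¹ • t) = 0 := by
    refine Function.notMem_support.1 fun h => ?_
    rw [bump.support_normed_eq, mem_ball_zero_iff, norm_smul, Real.norm_eq_abs,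
      abs_of_pos (inv_pos.2 hε), inv_mul_lt_iff₀ hε] at h
    change ‖t‖ < ε * 1 at h
    linarith
  simp [rho, this]

lemma continuous_rho (ε : ℝ) : Continuous (rho ε) :=
  continuous_const.mul (bump.continuous_normed.comp (continuous_const_smul _))

lemma integral_rho {ε : ℝ} (hε : 0 < ε) : ∫ t, rho ε t = 1 := by
  simp only [rho, integral_const_mul]
  rw [Measure.integral_comp_inv_smul_of_nonneg (μ := (volume : Measure V))
    (fun t => bump.normed volume t) hε.le, bump.integral_normed]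
  simp [hε.ne']

/-- The law of a translation at scale `ε`. -/
noncomputable def rhoM (ε : ℝ) : Measure V :=
  volume.withDensity fun t => ENNReal.ofReal (rho ε t)

lemma isProb_rhoM {ε : ℝ} (hε : 0 < ε) : IsProbabilityMeasure (rhoM ε) := by
  refine ⟨?_⟩
  have hi : Integrable (rho ε) := by
    by_contra h
    simpa [integral_undef h] using integral_rho hε
  rw [rhoM, withDensity_apply _ MeasurableSet.univ, setLIntegral_univ,
    ← ofReal_integral_eq_lintegral_ofReal hi (Filter.Eventually.of_forall (rho_nonneg ε)),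
    integral_rho hε, ENNReal.ofReal_one]

lemma integral_rhoM (ε : ℝ) (g : V → Form) : ∫ t, g t ∂rhoM ε = ∫ t, rho ε t • g t := by
  rw [rhoM, integral_withDensity_eq_integral_toReal_smul
    (continuous_rho ε).measurable.ennreal_ofReal
    (Filter.Eventually.of_forall fun _ => ENNReal.ofReal_lt_top)]
  exact integral_congr_ae (Filter.Eventually.of_forall fun t => by
    simp only [ENNReal.toReal_ofReal (rho_nonneg ε t)])

lemma ae_small {ε : ℝ} (hε : 0 < ε) : ∀ᵐ t ∂rhoM ε, ‖t‖ ≤ ε := by
  refine (ae_withDensity_iff (continuous_rho ε).measurable.ennreal_ofReal).2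
    (Filter.Eventually.of_forall fun t ht => ?_)
  by_contra h
  simp [rho_zero_of_lt hε (not_le.1 h)] at ht

lemma rhoM_le (ε : ℝ) : rhoM ε ≤ ENNReal.ofReal (kap0 / ε ^ 4) • volume := by
  refine Measure.le_iff.2 fun s hs => ?_
  rw [rhoM, withDensity_apply _ hs, Measure.smul_apply, smul_eq_mul, ← setLIntegral_const]
  exact lintegral_mono fun t => ENNReal.ofReal_le_ofReal (rho_le ε t)

lemma le_rhoM {ε : ℝ} (hε : 0 < ε) {s : Set V} (hs : MeasurableSet s)
    (hsub : s ⊆ Metric.closedBall 0 (ε / 2)) :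
    ENNReal.ofReal (kap0 / ε ^ 4) * volume s ≤ rhoM ε s := by
  rw [rhoM, withDensity_apply _ hs, ← setLIntegral_const]
  exact setLIntegral_mono (continuous_rho ε).measurable.ennreal_ofReal fun t ht =>
    ENNReal.ofReal_le_ofReal (rho_of_small hε (mem_closedBall_zero_iff.1 (hsub ht))).ge

/-- The probability of a translation of relative size at most `η`. -/
lemma rhoM_ball {ε η : ℝ} (hε : 0 < ε) (hη : 0 < η) (hη2 : η ≤ 1 / 2) :
    ENNReal.ofReal (kap0 * (2 * η) ^ 4) ≤ rhoM ε (Metric.closedBall 0 (η * ε)) := by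
  refine le_trans ?_ (le_rhoM hε Metric.isClosed_closedBall.measurableSet
    (Metric.closedBall_subset_closedBall (by nlinarith)))
  rw [Real.volume_pi_closedBall _ (by positivity), ← ENNReal.ofReal_mul
    (div_nonneg kap0_pos.le (by positivity)), Fintype.card_fin]
  refine ENNReal.ofReal_le_ofReal (le_of_eq ?_)
  field_simp

/-! ## Maps close to the identity -/

lemma volume_image_le {G : V → V} {S : Set V}
    (h : ∀ x ∈ S, ∀ y ∈ S, ‖G x - G y‖ ≤ 2 * ‖x - y‖) :
    volume (G '' S) ≤ 16 * volume S := by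
  have hl : LipschitzOnWith (2 : ℝ≥0) G S := LipschitzOnWith.of_dist_le_mul fun x hx y hy => by
    simpa [dist_eq_norm] using h x hx y hy
  have h' := hl.hausdorffMeasure_image_le (show (0 : ℝ) ≤ 4 by norm_num)
  have hv : (Measure.hausdorffMeasure 4 : Measure V) = volume := by
    have := hausdorffMeasure_pi_real (ι := Fin 4)
    simpa using this
  rw [hv] at h'
  refine h'.trans (le_of_eq ?_)
  norm_num

lemma volume_le_image {G : V → V} {S : Set V}
    (h : ∀ x ∈ S, ∀ y ∈ S, ‖x - y‖ ≤ 2 * ‖G x - G y‖) :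
    volume S ≤ 16 * volume (G '' S) := by
  have hinj : Set.InjOn G S := fun x hx y hy hxy => by
    have := h x hx y hy
    rw [hxy, sub_self, norm_zero, mul_zero, norm_le_zero_iff, sub_eq_zero] at this
    exact this
  have hg : Function.invFunOn G S '' (G '' S) = S := hinj.invFunOn_image subset_rfl
  conv_lhs => rw [← hg]
  refine volume_image_le ?_
  rintro - ⟨x, hx, rfl⟩ - ⟨y, hy, rfl⟩
  rw [hinj.leftInvOn_invFunOn hx, hinj.leftInvOn_invFunOn hy]
  exact h x hx y hy

/-- A map close to the identity on a convex set. -/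
lemma near_bilip {G : V → V} {D : V → V →L[ℝ] V} {S : Set V} (hS : Convex ℝ S) {κ : ℝ}
    (hκ : κ ≤ 1 / 2) (hd : ∀ x ∈ S, HasFDerivAt G (D x) x) (hD : ∀ x ∈ S, ‖D x - 1‖ ≤ κ)
    {x y : V} (hx : x ∈ S) (hy : y ∈ S) :
    ‖(G x - x) - (G y - y)‖ ≤ 1 / 2 * ‖x - y‖ ∧
      ‖x - y‖ ≤ 2 * ‖G x - G y‖ ∧ ‖G x - G y‖ ≤ 2 * ‖x - y‖ := by
  have h : ‖(G x - x) - (G y - y)‖ ≤ κ * ‖x - y‖ :=
    hS.norm_image_sub_le_of_norm_hasFDerivWithin_le (f := fun z => G z - z)
      (f' := fun z => D z - 1) (fun z hz => ((hd z hz).sub (hasFDerivAt_id z)).hasFDerivWithinAt)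
      hD hy hx
  have h1 : ‖(G x - x) - (G y - y)‖ ≤ 1 / 2 * ‖x - y‖ :=
    h.trans (mul_le_mul_of_nonneg_right hκ (norm_nonneg _))
  have heq : (G x - x) - (G y - y) = (G x - G y) - (x - y) := by abel
  have h2 := norm_sub_norm_le (x - y) (G x - G y)
  have h3 := norm_sub_norm_le (G x - G y) (x - y)
  rw [norm_sub_rev (x - y) (G x - G y)] at h2
  refine ⟨h1, ?_, ?_⟩ <;> rw [heq] at h1 <;> linarith [norm_nonneg (x - y)]

/-- A map close to the identity reaches every point near the centre. -/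
lemma near_surj {G : V → V} {S : Set V}
    (hl : ∀ x ∈ S, ∀ y ∈ S, ‖(G x - x) - (G y - y)‖ ≤ 1 / 2 * ‖x - y‖)
    {w : V} {r : ℝ} (hr : 0 ≤ r) (hball : Metric.closedBall w r ⊆ S)
    (hw : ‖G w - w‖ ≤ r / 2) : ∃ v ∈ Metric.closedBall w r, G v = w := by
  set T : V → V := fun v => v - (G v - w) with hT
  have hmaps : Set.MapsTo T (Metric.closedBall w r) (Metric.closedBall w r) := fun v hv => by
    rw [mem_closedBall_iff_norm] at hv ⊢
    have h := hl v (hball (mem_closedBall_iff_norm.2 hv)) w (hball (Metric.mem_closedBall_self hr))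
    have h2 : ‖T v - w‖ ≤ ‖(G v - v) - (G w - w)‖ + ‖G w - w‖ := by
      have : T v - w = -((G v - v) - (G w - w)) - (G w - w) := by simp only [hT]; abel
      rw [this]
      refine (norm_sub_le _ _).trans ?_
      rw [norm_neg]
    linarith
  have hc : ContractingWith (1 / 2) (hmaps.restrict T _ _) := by
    refine ⟨by norm_num, LipschitzWith.of_dist_le_mul fun a b => ?_⟩
    have h := hl a.1 (hball a.2) b.1 (hball b.2)
    simp only [Subtype.dist_eq, dist_eq_norm, NNReal.coe_div, NNReal.coe_one, NNReal.coe_ofNat]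
    refine le_trans (le_of_eq ?_) h
    rw [← norm_neg]
    congr 1
    simp only [Set.MapsTo.val_restrict_apply, hT]
    abel
  obtain ⟨v, hv, hfix, -, -⟩ := hc.exists_fixedPoint' Metric.isClosed_closedBall.isComplete hmaps
    (Metric.mem_closedBall_self hr) (edist_ne_top _ _)
  refine ⟨v, hv, ?_⟩
  have : v - (G v - w) = v := hfix
  rwa [sub_eq_self, sub_eq_zero] at this

end Vale.Agent.P204.Gen.AvgAux
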