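import Vale.Agent.P204.Gen.AvgRep.Basic

/-!
P204, general four-manifold, module AvgRep: the cut-off translations read in one chart.

`sh G i j t` is the translation of the chart `j` in the coordinates of the chart `i`. Near the
compact set `φ i '' tsupport (ψ i)` it is smooth in `(t, u)`, hence `O(t)` close to the identity
with its derivative, and for `j = i` it is the translation `u ↦ u + t`.
-/

open Filter Topology
open scoped ContDiff

namespace Vale.Agent.P204.Gen.AvgAux

open Vale.Agent.P204.Torus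

variable {X : Type*} [TopologicalSpace X] [T2Space X] [MeasurableSpace X] (G : Geo X)

omit [T2Space X] in
lemma mem_tr (x : X) : x ∈ (G.φ (G.tr x)).source :=
  G.ψ_supp _ (subset_closure (G.tr_pos x).ne')

/-- The change from the chart `i` to the chart `j`. -/
noncomputable def chg (i j : Fin G.n) (u : V) : V := G.φ j ((G.φ i).symm u)

omit [T2Space X] in
lemma contDiffAt_chg {i j : Fin G.n} {u : V} (hu : u ∈ (G.φ i).target)
    (hj : (G.φ i).symm u ∈ (G.φ j).source) : ContDiffAt ℝ ∞ (chg G i j) u :=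
  (G.trans_smooth i j).contDiffAt (((G.φ i).symm.trans (G.φ j)).open_source.mem_nhds ⟨hu, hj⟩)

/-- The translation of the chart `j`, in the chart `i`. -/
noncomputable def sh (i j : Fin G.n) (t u : V) : V := G.φ i (G.shift j t ((G.φ i).symm u))

omit [T2Space X] in
lemma shift_zero (j : Fin G.n) (x : X) : G.shift j 0 x = x := by
  unfold Geo.shift
  split_ifs with h
  · rw [smul_zero, add_zero, (G.φ j).left_inv h]
  · rfl

omit [T2Space X] in
lemma sh_zero {i j : Fin G.n} {u : V} (hu : u ∈ (G.φ i).target) : sh G i j 0 u = u := by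
  rw [sh, shift_zero, (G.φ i).right_inv hu]

/-- At a small translation the shift is smooth and stays in the chart. -/
lemma sh_regular {i : Fin G.n} (j : Fin G.n) {u : V} (hu : u ∈ (G.φ i).target) :
    ContDiffAt ℝ 2 (fun p : V × V => sh G i j p.1 p.2) (0, u) ∧
      ∀ᶠ p : V × V in 𝓝 (0, u), G.shift j p.1 ((G.φ i).symm p.2) ∈ (G.φ i).source := by
  set x := (G.φ i).symm u with hx
  have hxi : x ∈ (G.φ i).source := (G.φ i).map_target hu
  have hpre : ∀ᶠ p : V × V in 𝓝 (0, u), p.2 ∈ (G.φ i).target :=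
    continuousAt_snd.preimage_mem_nhds ((G.φ i).open_target.mem_nhds hu)
  have hsymm : ContinuousAt (fun p : V × V => (G.φ i).symm p.2) (0, u) :=
    ((G.φ i).continuousAt_symm hu).comp' continuousAt_snd
  by_cases hj : x ∈ (G.φ j).source
  · set v := G.φ j x with hv
    have hvt : v ∈ (G.φ j).target := (G.φ j).map_source hj
    have hvx : (G.φ j).symm v = x := (G.φ j).left_inv hj
    set w : V × V → V := fun p => chg G i j p.2 + G.χ j (chg G i j p.2) • p.1 with hw
    have hw0 : w (0, u) = v := by simp [hw, chg, hv, hx]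
    have hc : ContDiffAt ℝ ∞ (fun p : V × V => chg G i j p.2) (0, u) :=
      ContDiffAt.comp (0, u) (g := chg G i j) (contDiffAt_chg G hu hj) contDiffAt_snd
    have hwd : ContDiffAt ℝ ∞ w (0, u) :=
      hc.add ((((G.χ_smooth j).contDiffAt).comp (0, u) hc).smul contDiffAt_fst)
    have heq : ∀ᶠ p : V × V in 𝓝 (0, u),
        G.shift j p.1 ((G.φ i).symm p.2) = (G.φ j).symm (w p) := by
      have h1 : ∀ᶠ p : V × V in 𝓝 (0, u), (G.φ i).symm p.2 ∈ (G.φ j).source :=
        hsymm.preimage_mem_nhds ((G.φ j).open_source.mem_nhds hj)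
      filter_upwards [h1] with p hp
      simp only [Geo.shift, if_pos hp, hw, chg]
    refine ⟨?_, ?_⟩
    · have hcc : ContDiffAt ℝ ∞ (fun p => chg G j i (w p)) (0, u) := by
        refine ContDiffAt.comp (0, u) (g := chg G j i) ?_ hwd
        rw [hw0]
        exact contDiffAt_chg G hvt (by rw [hvx]; exact hxi)
      refine (hcc.of_le (by norm_cast)).congr_of_eventuallyEq ?_
      filter_upwards [heq] with p hp
      rw [sh, hp, chg]
    · have hmem : ∀ᶠ p : V × V in 𝓝 (0, u), w p ∈ (G.φ j).symm ⁻¹' (G.φ i).source := by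
        refine hwd.continuousAt.preimage_mem_nhds ?_
        rw [hw0]
        exact ((G.φ j).continuousAt_symm hvt).preimage_mem_nhds
          ((G.φ i).open_source.mem_nhds (by rw [hvx]; exact hxi))
      filter_upwards [heq, hmem] with p hp hp'
      rw [hp]
      exact hp'
  · set K := (G.φ j).symm '' tsupport (G.χ j) with hK
    have hKc : IsCompact K := (G.χ_cpt j).isCompact.image_of_continuousOn
      ((G.φ j).continuousOn_symm.mono (G.χ_supp j))
    have hKs : K ⊆ (G.φ j).source := by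
      rintro - ⟨v, hv, rfl⟩
      exact (G.φ j).map_target (G.χ_supp j hv)
    have h1 : ∀ᶠ p : V × V in 𝓝 (0, u), (G.φ i).symm p.2 ∉ K :=
      hsymm.preimage_mem_nhds (hKc.isClosed.isOpen_compl.mem_nhds fun h => hj (hKs h))
    have heq : ∀ᶠ p : V × V in 𝓝 (0, u),
        G.shift j p.1 ((G.φ i).symm p.2) = (G.φ i).symm p.2 := by
      filter_upwards [h1] with p hp
      unfold Geo.shift
      split_ifs with hs
      · have : G.χ j (G.φ j ((G.φ i).symm p.2)) = 0 := image_eq_zero_of_notMem_tsupport fun h =>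
          hp ⟨_, h, (G.φ j).left_inv hs⟩
        rw [this, zero_smul, add_zero, (G.φ j).left_inv hs]
      · rfl
    refine ⟨?_, ?_⟩
    · refine (contDiffAt_snd (n := 2)).congr_of_eventuallyEq ?_
      filter_upwards [heq, hpre] with p hp hp'
      rw [sh, hp, (G.φ i).right_inv hp']
    · filter_upwards [heq, hpre] with p hp hp'
      rw [hp]
      exact (G.φ i).map_target hp'

omit [T2Space X] in
/-- The chain rule which removes the chart at the point. -/
lemma chain_dT {i j : Fin G.n} {t u : V} (hu : u ∈ (G.φ i).target)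
    (hs : G.shift j t ((G.φ i).symm u) ∈ (G.φ i).source)
    (hd : DifferentiableAt ℝ (sh G i j t) u)
    (hnear : ∀ᶠ v in 𝓝 u, G.shift j t ((G.φ i).symm v) ∈ (G.φ i).source) :
    (G.mder (G.shift j t) ((G.φ i).symm u)).comp (G.dT i ((G.φ i).symm u)) =
      (G.dT i (G.shift j t ((G.φ i).symm u))).comp (fderiv ℝ (sh G i j t) u) := by
  set x := (G.φ i).symm u with hx
  set y := G.shift j t x with hy
  set a := G.tr x with ha
  set b := G.tr y with hb
  have hxa : x ∈ (G.φ a).source := mem_tr G x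
  have hyb : y ∈ (G.φ b).source := mem_tr G y
  have hix : G.φ i x = u := (G.φ i).right_inv hu
  have hxi : x ∈ (G.φ i).source := (G.φ i).map_target hu
  have hy' : G.φ i y = sh G i j t u := rfl
  have hav : G.φ a x ∈ (G.φ a).target := (G.φ a).map_source hxa
  have d1' : DifferentiableAt ℝ (chg G i a) u :=
    (contDiffAt_chg G hu (by rw [← hx]; exact hxa)).differentiableAt (by simp)
  have d2 : DifferentiableAt ℝ (chg G i b) (sh G i j t u) :=
    (contDiffAt_chg G ((G.φ i).map_source hs)
      (by rw [(G.φ i).left_inv hs]; exact hyb)).differentiableAt (by simp)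
  have d3 : DifferentiableAt ℝ (chg G a i) (G.φ a x) :=
    (contDiffAt_chg G hav (by rw [(G.φ a).left_inv hxa]; exact hxi)).differentiableAt (by simp)
  have h3 : chg G a i (G.φ a x) = u := by rw [chg, (G.φ a).left_inv hxa, hix]
  set M : V → V := fun v => G.φ b (G.shift j t ((G.φ a).symm v)) with hM
  have hnear' : ∀ᶠ v in 𝓝 (G.φ a x), (G.φ a).symm v ∈ (G.φ i).source :=
    ((G.φ a).continuousAt_symm hav).preimage_mem_nhds
      ((G.φ i).open_source.mem_nhds (by rw [(G.φ a).left_inv hxa]; exact hxi))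
  have eM : ∀ᶠ v in 𝓝 (G.φ a x), M v = chg G i b (sh G i j t (chg G a i v)) := by
    have hc : ∀ᶠ v in 𝓝 (G.φ a x),
        G.shift j t ((G.φ i).symm (chg G a i v)) ∈ (G.φ i).source :=
      (d3.continuousAt.tendsto.eventually (by rw [h3]; exact hnear))
    filter_upwards [hnear', hc] with v hv hv'
    simp only [hM, chg, sh] at hv' ⊢
    rw [(G.φ i).left_inv hv', (G.φ i).left_inv hv]
  have dsh : DifferentiableAt ℝ (sh G i j t) (chg G a i (G.φ a x)) := by rw [h3]; exact hd
  have dM : DifferentiableAt ℝ M (G.φ a x) := by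
    refine DifferentiableAt.congr_of_eventuallyEq ?_ eM
    refine DifferentiableAt.comp (G.φ a x) (g := chg G i b) ?_ (dsh.comp (G.φ a x) d3)
    simpa only [Function.comp_apply, h3] using d2
  have hau : chg G i a u = G.φ a x := rfl
  have e1 : fderiv ℝ (fun v => M (chg G i a v)) u =
      (G.mder (G.shift j t) x).comp (G.dT i x) := by
    rw [fderiv_fun_comp u (by rw [hau]; exact dM) d1']
    simp only [Geo.mder, Geo.dT, Geo.ch, hix, hau]
    rfl
  have e2 : fderiv ℝ (fun v => chg G i b (sh G i j t v)) u =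
      (G.dT i y).comp (fderiv ℝ (sh G i j t) u) := by
    rw [fderiv_fun_comp u d2 hd]
    rfl
  have eN : (fun v => M (chg G i a v)) =ᶠ[𝓝 u] fun v => chg G i b (sh G i j t v) := by
    have h1 : ∀ᶠ v in 𝓝 u, (G.φ i).symm v ∈ (G.φ a).source :=
      ((G.φ i).continuousAt_symm hu).preimage_mem_nhds ((G.φ a).open_source.mem_nhds hxa)
    filter_upwards [h1, hnear] with v hv hv'
    simp only [hM, chg, sh]
    rw [(G.φ a).left_inv hv, (G.φ i).left_inv hv']
  rw [← e1, ← e2, eN.fderiv_eq]

omit [T2Space X] in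
/-- The derivative of the change of chart is invertible. -/
lemma exists_dT_inverse {i : Fin G.n} {u : V} (hu : u ∈ (G.φ i).target) :
    ∃ L : V →L[ℝ] V, L.comp (G.dT i ((G.φ i).symm u)) = 1 ∧
      (G.dT i ((G.φ i).symm u)).comp L = 1 := by
  set x := (G.φ i).symm u with hx
  set a := G.tr x
  have hxa : x ∈ (G.φ a).source := mem_tr G x
  have hxi : x ∈ (G.φ i).source := (G.φ i).map_target hu
  have hix : G.φ i x = u := (G.φ i).right_inv hu
  have hav : G.φ a x ∈ (G.φ a).target := (G.φ a).map_source hxa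
  have d1' : DifferentiableAt ℝ (chg G i a) u :=
    (contDiffAt_chg G hu hxa).differentiableAt (by simp)
  have d3 : DifferentiableAt ℝ (chg G a i) (G.φ a x) :=
    (contDiffAt_chg G hav (by rw [(G.φ a).left_inv hxa]; exact hxi)).differentiableAt (by simp)
  have hau : chg G i a u = G.φ a x := rfl
  have h3 : chg G a i (G.φ a x) = u := by rw [chg, (G.φ a).left_inv hxa, hix]
  have hdT : G.dT i x = fderiv ℝ (chg G i a) u := by rw [Geo.dT, hix]; rfl
  refine ⟨fderiv ℝ (chg G a i) (G.φ a x), ?_, ?_⟩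
  · rw [hdT]
    have h : (fun v => chg G a i (chg G i a v)) =ᶠ[𝓝 u] fun v => v := by
      have h1 : ∀ᶠ v in 𝓝 u, (G.φ i).symm v ∈ (G.φ a).source :=
        ((G.φ i).continuousAt_symm hu).preimage_mem_nhds ((G.φ a).open_source.mem_nhds hxa)
      filter_upwards [h1, (G.φ i).open_target.mem_nhds hu] with v hv hv'
      simp only [chg]
      rw [(G.φ a).left_inv hv, (G.φ i).right_inv hv']
    have e := h.fderiv_eq (𝕜 := ℝ)
    rw [fderiv_fun_comp u (by rw [hau]; exact d3) d1', fderiv_fun_id, hau] at e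
    exact e
  · rw [hdT]
    have h : (fun v => chg G i a (chg G a i v)) =ᶠ[𝓝 (G.φ a x)] fun v => v := by
      have h1 : ∀ᶠ v in 𝓝 (G.φ a x), (G.φ a).symm v ∈ (G.φ i).source :=
        ((G.φ a).continuousAt_symm hav).preimage_mem_nhds
          ((G.φ i).open_source.mem_nhds (by rw [(G.φ a).left_inv hxa]; exact hxi))
      filter_upwards [h1, (G.φ a).open_target.mem_nhds hav] with v hv hv'
      simp only [chg]
      rw [(G.φ i).left_inv hv, (G.φ a).right_inv hv']
    have e := h.fderiv_eq (𝕜 := ℝ)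
    rw [fderiv_fun_comp (G.φ a x) (by rw [h3]; exact d1') d3, fderiv_fun_id, h3] at e
    exact e

omit [T2Space X] in
lemma rep2_apply {i : Fin G.n} {u : V} (hu : u ∈ (G.φ i).target) (β : X → Form) :
    G.rep2 i β u = pull (G.dT i ((G.φ i).symm u)) (β ((G.φ i).symm u)) := by
  simp [Geo.rep2, hu]

omit [T2Space X] in
/-- A translation average read in the chart `i`. -/
lemma rep2_avg {i j : Fin G.n} {u : V} (hu : u ∈ (G.φ i).target) {ε : ℝ} (β : X → Form)
    {g : V → Form} (hg : ∀ᵐ t ∂rhoM ε,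
      G.shift j t ((G.φ i).symm u) ∈ (G.φ i).source ∧
      (∀ᶠ v in 𝓝 u, G.shift j t ((G.φ i).symm v) ∈ (G.φ i).source) ∧
      DifferentiableAt ℝ (sh G i j t) u ∧
      pull (fderiv ℝ (sh G i j t) u) (G.rep2 i β (sh G i j t u)) = g t) :
    G.rep2 i (G.avg j ε β) u = ∫ t, g t ∂rhoM ε := by
  obtain ⟨L, hL1, hL2⟩ := exists_dT_inverse G hu
  set x := (G.φ i).symm u
  let Φ : Form ≃L[ℝ] Form := ContinuousLinearEquiv.equivOfInverse (pullC (G.dT i x)) (pullC L)
    (fun β => by simp only [pullC_apply, pull_comp, hL2, pull_one])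
    (fun β => by simp only [pullC_apply, pull_comp, hL1, pull_one])
  have hΦ : ∀ β, Φ β = pull (G.dT i x) β := fun _ => rfl
  rw [rep2_apply G hu, Geo.avg, ← integral_rhoM, ← hΦ,
    ← ContinuousLinearEquiv.integral_comp_comm]
  refine MeasureTheory.integral_congr_ae ?_
  filter_upwards [hg] with t ⟨h1, h2, h3, h4⟩
  rw [hΦ, Geo.pb, pull_comp, chain_dT G hu h1 h3 h2, ← pull_comp, ← h4]
  change _ = pull _ (G.rep2 i β (G.φ i (G.shift j t x)))
  rw [rep2_apply G ((G.φ i).map_source h1), (G.φ i).left_inv h1]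

/-- Near a compact subset of the chart `i`, the translations of the chart `j` are `O(t)` close to
the identity. -/
lemma exists_sh_bounds {i : Fin G.n} (j : Fin G.n) {K : Set V} (hK : IsCompact K)
    (hsub : K ⊆ (G.φ i).target) :
    ∃ δ C : ℝ, 0 < δ ∧ 0 ≤ C ∧
      ContinuousOn (fun p : V × V => sh G i j p.1 p.2) (Metric.closedBall 0 δ ×ˢ K) ∧
      ContinuousOn (fun p : V × V => fderiv ℝ (sh G i j p.1) p.2)
        (Metric.closedBall 0 δ ×ˢ K) ∧
      ∀ t : V, ‖t‖ ≤ δ → ∀ u ∈ K,
        G.shift j t ((G.φ i).symm u) ∈ (G.φ i).source ∧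
        (∀ᶠ v in 𝓝 u, G.shift j t ((G.φ i).symm v) ∈ (G.φ i).source) ∧
        DifferentiableAt ℝ (sh G i j t) u ∧
        ‖sh G i j t u - u‖ ≤ C * ‖t‖ ∧ ‖fderiv ℝ (sh G i j t) u - 1‖ ≤ C * ‖t‖ := by
  set F : V × V → V := fun p => sh G i j p.1 p.2 with hF
  set O := interior {p : V × V | ContDiffAt ℝ 2 F p ∧
    G.shift j p.1 ((G.φ i).symm p.2) ∈ (G.φ i).source} with hO
  have hsubO : ({0} : Set V) ×ˢ K ⊆ O := by
    rintro ⟨t, u⟩ ⟨ht, hu⟩
    rw [Set.mem_singleton_iff] at ht
    subst ht
    obtain ⟨h1, h2⟩ := sh_regular G j (hsub hu)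
    rw [hO, mem_interior_iff_mem_nhds]
    exact (h1.eventually (by simp)).and h2
  obtain ⟨δ, hδ, hth⟩ :=
    (isCompact_singleton.prod hK).exists_cthickening_subset_open isOpen_interior hsubO
  set S := Metric.closedBall (0 : V) δ ×ˢ K with hS
  have hSO : S ⊆ O := by
    rintro ⟨t, u⟩ ⟨ht, hu⟩
    refine hth (Metric.mem_cthickening_of_dist_le (t, u) (0, u) δ _ ⟨rfl, hu⟩ ?_)
    simpa [Prod.dist_eq, hδ.le] using ht
  have hSc : IsCompact S := (isCompact_closedBall _ _).prod hK
  have hat : ∀ p ∈ O, ContDiffAt ℝ 2 F p := fun p hp => (interior_subset hp).1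
  have hcd : ContDiffOn ℝ 2 F O := fun p hp => (hat p hp).contDiffWithinAt
  have hcd1 : ContDiffOn ℝ 1 (fderiv ℝ F) O :=
    hcd.fderiv_of_isOpen isOpen_interior (by norm_num)
  have hdiff : ∀ p ∈ O, HasFDerivAt F (fderiv ℝ F p) p := fun p hp =>
    ((hat p hp).differentiableAt (by norm_num)).hasFDerivAt
  have hdiff2 : ∀ p ∈ O, HasFDerivAt (fderiv ℝ F) (fderiv ℝ (fderiv ℝ F) p) p := fun p hp =>
    ((hcd1.contDiffAt (isOpen_interior.mem_nhds hp)).differentiableAt (by norm_num)).hasFDerivAt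
  obtain ⟨M1, hM1⟩ := hSc.exists_bound_of_continuousOn (hcd1.continuousOn.mono hSO)
  obtain ⟨M2, hM2⟩ := hSc.exists_bound_of_continuousOn
    ((hcd1.continuousOn_fderiv_of_isOpen isOpen_interior le_rfl).mono hSO)
  set inr := ContinuousLinearMap.inr ℝ V V
  set inl := ContinuousLinearMap.inl ℝ V V
  have hder : ∀ p ∈ O, HasFDerivAt (sh G i j p.1) ((fderiv ℝ F p).comp inr) p.2 := fun p hp =>
    HasFDerivAt.comp (f := fun v => (p.1, v)) p.2 (hdiff p hp)
      (hasFDerivAt_prodMk_right (𝕜 := ℝ) p.1 p.2)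
  refine ⟨δ, max (max M1 M2) 0, hδ, le_max_right _ _, hcd.continuousOn.mono hSO, ?_, ?_⟩
  · refine ((hcd1.continuousOn.mono hSO).clm_comp
      (continuousOn_const (c := inr))).congr fun p hp => ?_
    exact (hder p (hSO hp)).fderiv
  intro t ht u hu
  have hmem : ∀ s ∈ Metric.closedBall (0 : V) δ, (s, u) ∈ S := fun s hs => ⟨hs, hu⟩
  have htb : t ∈ Metric.closedBall (0 : V) δ := mem_closedBall_zero_iff.2 ht
  have hp := hSO (hmem t htb)
  have h0 := hSO (hmem 0 (Metric.mem_closedBall_self hδ.le))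
  have hC : ∀ M, M ≤ max (max M1 M2) 0 → ∀ (D : V × V →L[ℝ] V), ‖D‖ ≤ M →
      ‖D.comp inl‖ ≤ max (max M1 M2) 0 := fun M hM D hD => by
    refine (ContinuousLinearMap.opNorm_comp_le _ _).trans ?_
    have hi : ‖inl‖ ≤ 1 := ContinuousLinearMap.opNorm_le_bound _ zero_le_one fun v => by
      simp [inl, Prod.norm_def]
    calc ‖D‖ * ‖inl‖ ≤ max (max M1 M2) 0 * 1 :=
          mul_le_mul (hD.trans hM) hi (norm_nonneg _) (le_max_right _ _)
      _ = _ := mul_one _
  have e0 : F (0, u) = u := sh_zero G (hsub hu)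
  have d0 : (fderiv ℝ F (0, u)).comp inr = 1 := by
    refine (hder (0, u) h0).unique ((hasFDerivAt_id u).congr_of_eventuallyEq ?_)
    filter_upwards [(G.φ i).open_target.mem_nhds (hsub hu)] with v hv
    exact sh_zero G hv
  refine ⟨(interior_subset hp).2, ?_, (hder (t, u) hp).differentiableAt, ?_, ?_⟩
  · have : ∀ᶠ v in 𝓝 u, (t, v) ∈ O :=
      (Continuous.prodMk_right t).continuousAt.preimage_mem_nhds (isOpen_interior.mem_nhds hp)
    filter_upwards [this] with v hv using (interior_subset hv).2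
  · have h := (convex_closedBall (0 : V) δ).norm_image_sub_le_of_norm_hasFDerivWithin_le
      (f := fun s => F (s, u)) (f' := fun s => (fderiv ℝ F (s, u)).comp inl)
      (fun s hs => (HasFDerivAt.comp (f := fun v => (v, u)) s (hdiff _ (hSO (hmem s hs)))
        (hasFDerivAt_prodMk_left (𝕜 := ℝ) s u)).hasFDerivWithinAt)
      (fun s hs => hC M1 (le_max_of_le_left (le_max_left _ _)) _ (hM1 _ (hmem s hs)))
      (Metric.mem_closedBall_self hδ.le) htb
    rw [e0, sub_zero] at h
    exact h
  · have h := (convex_closedBall (0 : V) δ).norm_image_sub_le_of_norm_hasFDerivWithin_le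
      (f := fun s => fderiv ℝ F (s, u))
      (f' := fun s => (fderiv ℝ (fderiv ℝ F) (s, u)).comp inl)
      (C := max (max M1 M2) 0)
      (fun s hs => (HasFDerivAt.comp (f := fun v => (v, u)) s (hdiff2 _ (hSO (hmem s hs)))
        (hasFDerivAt_prodMk_left (𝕜 := ℝ) s u)).hasFDerivWithinAt)
      (fun s hs => ?_) (Metric.mem_closedBall_self hδ.le) htb
    · rw [sub_zero] at h
      rw [(hder (t, u) hp).fderiv, ← d0, ← ContinuousLinearMap.sub_comp]
      refine le_trans ?_ h
      refine (ContinuousLinearMap.opNorm_comp_le _ _).trans (mul_le_of_le_one_right (norm_nonneg _)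
        (ContinuousLinearMap.opNorm_le_bound _ zero_le_one fun v => ?_))
      simp [inr, Prod.norm_def]
    · refine (ContinuousLinearMap.opNorm_comp_le _ _).trans ?_
      have hi : ‖inl‖ ≤ 1 := ContinuousLinearMap.opNorm_le_bound _ zero_le_one fun v => by
        simp [inl, Prod.norm_def]
      calc _ ≤ max (max M1 M2) 0 * 1 := mul_le_mul
            ((hM2 _ (hmem s hs)).trans (le_max_of_le_left (le_max_right _ _))) hi
            (norm_nonneg _) (le_max_right _ _)
        _ = _ := mul_one _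

omit [T2Space X] in
/-- Where the cut-off is one, the translation of the chart itself is a translation. -/
lemma sh_self {i : Fin G.n} {t u : V} (hu : u ∈ (G.φ i).target) (h1 : G.χ i u = 1)
    (ht : u + t ∈ (G.φ i).target) :
    G.shift i t ((G.φ i).symm u) = (G.φ i).symm (u + t) ∧ sh G i i t u = u + t := by
  have h : G.shift i t ((G.φ i).symm u) = (G.φ i).symm (u + t) := by
    simp only [Geo.shift, (G.φ i).right_inv hu, (G.φ i).map_target hu, if_true, h1, one_smul]
  exact ⟨h, by rw [sh, h, (G.φ i).right_inv ht]⟩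

end Vale.Agent.P204.Gen.AvgAux
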