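import Vale.Agent.P204.Gen.AvgRep.Chart

/-!
P204, general four-manifold, module AvgRep: a composition of translation averages, read in one
chart, as a random map close to the identity.
-/

open MeasureTheory Filter Topology
open scoped ENNReal

namespace Vale.Agent.P204.Gen.AvgAux

open Vale.Agent.P204.Torus

variable {X : Type*} [TopologicalSpace X] [T2Space X] [MeasurableSpace X] (G : Geo X)

lemma mem_nb {K : Set V} {r d : ℝ} (hr : 0 ≤ r) (hd : 0 ≤ d) {u v : V}
    (hu : u ∈ Metric.cthickening r K) (hv : ‖v - u‖ ≤ d) :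
    v ∈ Metric.cthickening (r + d) K := by
  rw [add_comm]
  exact Metric.cthickening_cthickening_subset hd hr K
    (Metric.mem_cthickening_of_dist_le v u d _ hu (by rwa [dist_eq_norm]))

/-- One translation average near `K`, with total measurable data. -/
theorem exists_step {i : Fin G.n} (j : Fin G.n) {K : Set V} (hK : IsCompact K) {R : ℝ}
    (hR : 0 < R) (hsub : Metric.cthickening (2 * R) K ⊆ (G.φ i).target) :
    ∃ δ C : ℝ, ∃ f : V × V → V, ∃ D : V × V → V →L[ℝ] V,
      0 < δ ∧ 0 ≤ C ∧ Measurable f ∧ Measurable D ∧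
      (∀ t : V, ‖t‖ ≤ δ → ∀ u ∈ Metric.cthickening R K,
        HasFDerivAt (fun v => f (t, v)) (D (t, u)) u ∧
        ‖f (t, u) - u‖ ≤ C * ‖t‖ ∧ ‖D (t, u) - 1‖ ≤ C * ‖t‖) ∧
      ∀ ε, 0 < ε → ε ≤ δ → ∀ (β : X → Form) (B : V → Form) (ρ r : ℝ), ρ ≤ R →
        (∀ v ∈ Metric.cthickening ρ K, G.rep2 i β v = B v) → 0 ≤ r → r + C * ε ≤ ρ →
        ∀ u ∈ Metric.cthickening r K,
          G.rep2 i (G.avg j ε β) u = ∫ t, pull (D (t, u)) (B (f (t, u))) ∂rhoM ε := by
  classical
  obtain ⟨δ, C, hδ, hC, hc1, hc2, hb⟩ := exists_sh_bounds G j hK.cthickening hsub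
  set S := Metric.closedBall (0 : V) δ ×ˢ Metric.cthickening (2 * R) K with hS
  have hSm : MeasurableSet S :=
    Metric.isClosed_closedBall.measurableSet.prod Metric.isClosed_cthickening.measurableSet
  set f := S.piecewise (fun p => sh G i j p.1 p.2) Prod.snd with hf
  set D := S.piecewise (fun p => fderiv ℝ (sh G i j p.1) p.2) (fun _ => (1 : V →L[ℝ] V)) with hD
  have hin : ∀ u ∈ Metric.cthickening R K, u ∈ Metric.thickening (2 * R) K := fun u hu =>
    Metric.cthickening_subset_thickening' (by linarith) (by linarith) K hu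
  have hfs : ∀ t : V, ‖t‖ ≤ δ → ∀ u ∈ Metric.thickening (2 * R) K,
      f (t, u) = sh G i j t u ∧ D (t, u) = fderiv ℝ (sh G i j t) u := fun t ht u hu => by
    have hm : (t, u) ∈ S :=
      ⟨mem_closedBall_zero_iff.2 ht, Metric.thickening_subset_cthickening _ _ hu⟩
    simp [hf, hD, hm]
  refine ⟨δ, C, f, D, hδ, hC, hc1.measurable_piecewise continuous_snd.continuousOn hSm,
    hc2.measurable_piecewise continuousOn_const hSm, fun t ht u hu => ?_,
    fun ε hε hεδ β B ρ r hρ hB hr hrρ u hu => ?_⟩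
  · obtain ⟨-, -, h3, h4, h5⟩ := hb t ht u (Metric.thickening_subset_cthickening _ _ (hin u hu))
    obtain ⟨e1, e2⟩ := hfs t ht u (hin u hu)
    rw [e1, e2]
    refine ⟨h3.hasFDerivAt.congr_of_eventuallyEq ?_, h4, h5⟩
    filter_upwards [Metric.isOpen_thickening.mem_nhds (hin u hu)] with v hv
    exact (hfs t ht v hv).1
  · have hCε : 0 ≤ C * ε := mul_nonneg hC hε.le
    have huR : u ∈ Metric.cthickening R K := Metric.cthickening_mono (by linarith) K hu
    refine rep2_avg G (hsub (Metric.thickening_subset_cthickening _ _ (hin u huR))) β ?_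
    filter_upwards [ae_small hε] with t ht
    obtain ⟨h1, h2, h3, h4, -⟩ :=
      hb t (ht.trans hεδ) u (Metric.thickening_subset_cthickening _ _ (hin u huR))
    obtain ⟨e1, e2⟩ := hfs t (ht.trans hεδ) u (hin u huR)
    refine ⟨h1, h2, h3, ?_⟩
    rw [e1, e2, hB]
    exact Metric.cthickening_mono hrρ K
      (mem_nb hr hCε hu (h4.trans (mul_le_mul_of_nonneg_left ht hC)))

/-- A random map close to the identity which represents the averages over the list `l`. -/
structure Rand (i : Fin G.n) (K : Set V) (R : ℝ) (l : List (Fin G.n)) (C η θ ε : ℝ) where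
  /-- The sample space. -/
  P : Type
  /-- Its measurable sets. -/
  mP : MeasurableSpace P
  /-- The law. -/
  μ : Measure P
  /-- The map. -/
  F : P → V → V
  /-- Its derivative. -/
  A : P → V → V →L[ℝ] V
  prob : IsProbabilityMeasure μ
  measF : Measurable fun p : P × V => F p.1 p.2
  measA : Measurable fun p : P × V => A p.1 p.2
  eps_small : C * ε ≤ 1
  good : ∀ᵐ p ∂μ, ∀ r, 0 ≤ r → r + C * ε ≤ R → ∀ u ∈ Metric.cthickening r K,
    HasFDerivAt (F p) (A p u) u ∧ ‖F p u - u‖ ≤ C * ε ∧ ‖A p u - 1‖ ≤ C * ε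
  /-- The event of small translations. -/
  E : Set P
  E_meas : MeasurableSet E
  E_le : ENNReal.ofReal θ ≤ μ E
  small : ∀ p ∈ E, ∀ r, 0 ≤ r → r + C * ε ≤ R → ∀ u ∈ Metric.cthickening r K,
    ‖F p u - u‖ ≤ C * (η * ε)
  rep : ∀ (β : X → Form) (B : V → Form) (ρ : ℝ), Measurable B → (∃ M, ∀ v, ‖B v‖ ≤ M) → ρ ≤ R →
    (∀ v ∈ Metric.cthickening ρ K, G.rep2 i β v = B v) →
    ∀ r, 0 ≤ r → r + C * ε ≤ ρ → ∀ u ∈ Metric.cthickening r K,
      G.rep2 i (l.foldr (fun j γ => G.avg j ε γ) β) u = ∫ p, pull (A p u) (B (F p u)) ∂μ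

attribute [instance] Rand.mP Rand.prob

variable {G} {i : Fin G.n} {K : Set V} {R : ℝ}

omit [T2Space X] in
/-- The formula of a random map is bounded. -/
lemma Rand.pull_bound {l : List (Fin G.n)} {C η θ ε : ℝ} (Z : Rand G i K R l C η θ ε)
    {B : V → Form} {M : ℝ} (hM : ∀ v, ‖B v‖ ≤ M) {r : ℝ} (hr : 0 ≤ r) (hrR : r + C * ε ≤ R)
    {u : V} (hu : u ∈ Metric.cthickening r K) :
    ∀ᵐ p ∂Z.μ, ‖pull (Z.A p u) (B (Z.F p u))‖ ≤ 288 * M := by
  filter_upwards [Z.good] with p hp
  have h := (hp r hr hrR u hu).2.2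
  have h1 : ‖(1 : V →L[ℝ] V)‖ ≤ 1 := ContinuousLinearMap.norm_id_le
  have h2 : ‖Z.A p u‖ ≤ 2 := by
    have := norm_le_insert' (Z.A p u) 1
    linarith [Z.eps_small]
  refine (norm_pull_le _ _).trans ?_
  calc 72 * ‖Z.A p u‖ ^ 2 * ‖B (Z.F p u)‖ ≤ 72 * 2 ^ 2 * M := by
        gcongr
        exact hM _
    _ = _ := by ring

omit [T2Space X] in
lemma Rand.meas_pull {l : List (Fin G.n)} {C η θ ε : ℝ} (Z : Rand G i K R l C η θ ε)
    {B : V → Form} (hB : Measurable B) :
    Measurable fun p : Z.P × V => pull (Z.A p.1 p.2) (B (Z.F p.1 p.2)) :=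
  measurable_pull Z.measA (hB.comp Z.measF)

variable (G)

/-- Every list of averages is a random map close to the identity. -/
theorem exists_rand (hK : IsCompact K) (hR : 0 < R)
    (hsub : Metric.cthickening (2 * R) K ⊆ (G.φ i).target) (l : List (Fin G.n)) :
    ∃ C ε₁, 0 ≤ C ∧ 0 < ε₁ ∧ ∀ η, 0 < η → η ≤ 1 / 2 → ∃ θ, 0 < θ ∧
      ∀ ε, 0 < ε → ε ≤ ε₁ → Nonempty (Rand G i K R l C η θ ε) := by
  induction l with
  | nil =>
    refine ⟨0, 1, le_rfl, one_pos, fun η _ _ => ⟨1, one_pos, fun ε hε _ => ⟨?_⟩⟩⟩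
    exact
      { P := Unit
        mP := inferInstance
        μ := Measure.dirac ()
        F := fun _ u => u
        A := fun _ _ => 1
        prob := inferInstance
        measF := measurable_snd
        measA := measurable_const
        eps_small := by simp
        good := Eventually.of_forall fun _ r _ _ u _ => ⟨hasFDerivAt_id u, by simp, by simp⟩
        E := Set.univ
        E_meas := MeasurableSet.univ
        E_le := by simp
        small := fun _ _ r _ _ u _ => by simp
        rep := fun β B ρ _ _ _ hB r _ hr u hu => by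
          simp only [List.foldr_nil, integral_dirac, pull_one]
          exact hB u (Metric.cthickening_mono (by linarith) K hu) }
  | cons j l ih =>
    obtain ⟨C, ε₁, hC, hε₁, hZ⟩ := ih
    obtain ⟨δ, Cj, f, D, hδ, hCj, hfm, hDm, hstep, hrep⟩ := exists_step G j hK hR hsub
    set C' := 2 * C + Cj with hC'
    refine ⟨C', min ε₁ (min δ (1 / (C' + 1))), by positivity,
      lt_min hε₁ (lt_min hδ (by positivity)), fun η hη hη2 => ?_⟩
    obtain ⟨θ, hθ, hθZ⟩ := hZ η hη hη2
    refine ⟨kap0 * (2 * η) ^ 4 * θ, by have := kap0_pos; positivity, fun ε hε hεle => ?_⟩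
    simp only [le_min_iff] at hεle
    obtain ⟨hε₁', hεδ, hε1⟩ := hεle
    obtain ⟨Z⟩ := hθZ ε hε hε₁'
    have hp := isProb_rhoM hε
    have hCε : 0 ≤ C * ε := mul_nonneg hC hε.le
    have hCjε : 0 ≤ Cj * ε := mul_nonneg hCj hε.le
    have hsmall : C' * ε ≤ 1 := by
      rw [le_div_iff₀ (by positivity)] at hε1
      linarith
    have hroom : ∀ r, r + C' * ε ≤ R → r + Cj * ε + C * ε ≤ R ∧ r ≤ R := fun r hr => by
      rw [hC'] at hr; constructor <;> linarith
    have hm : Measurable fun q : (V × Z.P) × V => (q.1.2, f (q.1.1, q.2)) :=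
      (measurable_snd.comp measurable_fst).prodMk
        (hfm.comp ((measurable_fst.comp measurable_fst).prodMk measurable_snd))
    have hcomp : Continuous fun x : (V →L[ℝ] V) × (V →L[ℝ] V) => x.1.comp x.2 :=
      continuous_fst.clm_comp continuous_snd
    refine ⟨
      { P := V × Z.P
        mP := inferInstance
        μ := (rhoM ε).prod Z.μ
        F := fun p u => Z.F p.2 (f (p.1, u))
        A := fun p u => (Z.A p.2 (f (p.1, u))).comp (D (p.1, u))
        prob := inferInstance
        measF := Z.measF.comp hm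
        measA := hcomp.measurable.comp ((Z.measA.comp hm).prodMk
          (hDm.comp ((measurable_fst.comp measurable_fst).prodMk measurable_snd)))
        eps_small := hsmall
        good := ?_
        E := Metric.closedBall 0 (η * ε) ×ˢ Z.E
        E_meas := Metric.isClosed_closedBall.measurableSet.prod Z.E_meas
        E_le := ?_
        small := ?_
        rep := ?_ }⟩
    · filter_upwards [Measure.quasiMeasurePreserving_fst.ae (ae_small hε),
        Measure.quasiMeasurePreserving_snd.ae Z.good] with p hp1 hp2 r hr hrR u hu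
      obtain ⟨hr1, hr2⟩ := hroom r hrR
      obtain ⟨d1, d2, d3⟩ :=
        hstep p.1 (hp1.trans hεδ) u (Metric.cthickening_mono hr2 K hu)
      have d2' : ‖f (p.1, u) - u‖ ≤ Cj * ε := d2.trans (mul_le_mul_of_nonneg_left hp1 hCj)
      have d3' : ‖D (p.1, u) - 1‖ ≤ Cj * ε := d3.trans (mul_le_mul_of_nonneg_left hp1 hCj)
      obtain ⟨g1, g2, g3⟩ := hp2 (r + Cj * ε) (by linarith) hr1 _ (mem_nb hr hCjε hu d2')
      refine ⟨g1.comp u d1, ?_, ?_⟩
      · have := norm_sub_le_norm_sub_add_norm_sub (Z.F p.2 (f (p.1, u))) (f (p.1, u)) u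
        change ‖Z.F p.2 (f (p.1, u)) - u‖ ≤ C' * ε
        linarith
      · set A := Z.A p.2 (f (p.1, u))
        set B := D (p.1, u)
        have h1 : ‖(1 : V →L[ℝ] V)‖ ≤ 1 := ContinuousLinearMap.norm_id_le
        have hB2 : ‖B‖ ≤ 2 := by
          have := norm_le_insert' B 1
          linarith
        have heq : A.comp B - 1 = (A - 1).comp B + (B - 1) := by
          ext v
          simp
        rw [heq]
        refine (norm_add_le _ _).trans ?_
        have := (ContinuousLinearMap.opNorm_comp_le (A - 1) B).trans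
          (mul_le_mul g3 hB2 (norm_nonneg _) hCε)
        linarith
    · rw [Measure.prod_prod, ENNReal.ofReal_mul (by have := kap0_pos; positivity)]
      exact mul_le_mul' (rhoM_ball hε hη hη2) Z.E_le
    · intro p hp' r hr hrR u hu
      obtain ⟨hr1, hr2⟩ := hroom r hrR
      have ht : ‖p.1‖ ≤ η * ε := mem_closedBall_zero_iff.1 hp'.1
      have ht' : ‖p.1‖ ≤ ε := ht.trans (mul_le_of_le_one_left hε.le (by linarith))
      obtain ⟨-, d2, -⟩ :=
        hstep p.1 (ht'.trans hεδ) u (Metric.cthickening_mono hr2 K hu)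
      have g2 := Z.small p.2 hp'.2 (r + Cj * ε) (by linarith) hr1 _
        (mem_nb hr hCjε hu (d2.trans (mul_le_mul_of_nonneg_left ht' hCj)))
      have := norm_sub_le_norm_sub_add_norm_sub (Z.F p.2 (f (p.1, u))) (f (p.1, u)) u
      change ‖Z.F p.2 (f (p.1, u)) - u‖ ≤ C' * (η * ε)
      have := mul_le_mul_of_nonneg_left ht hCj
      have : 0 ≤ C * (η * ε) := by positivity
      linarith
    · rintro β B ρ hB ⟨M, hM⟩ hρ hrep' r hr hrρ u hu
      obtain ⟨hr1, hr2⟩ := hroom r (by linarith)
      have hrρ' : r + Cj * ε + C * ε ≤ ρ := by rw [hC'] at hrρ; linarith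
      set B1 : V → Form := fun v => ∫ p, pull (Z.A p v) (B (Z.F p v)) ∂Z.μ with hB1
      have hfold : ∀ v ∈ Metric.cthickening (r + Cj * ε) K,
          G.rep2 i (l.foldr (fun j γ => G.avg j ε γ) β) v = B1 v := fun v hv =>
        Z.rep β B ρ hB ⟨M, hM⟩ hρ hrep' (r + Cj * ε) (by linarith) hrρ' v hv
      rw [List.foldr_cons, hrep ε hε hεδ _ B1 (r + Cj * ε) r (by linarith) hfold hr le_rfl u hu]
      have hae : ∀ᵐ t ∂rhoM ε, f (t, u) ∈ Metric.cthickening (r + Cj * ε) K := by
        filter_upwards [ae_small hε] with t ht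
        exact mem_nb hr hCjε hu ((hstep t (ht.trans hεδ) u
          (Metric.cthickening_mono hr2 K hu)).2.1.trans (mul_le_mul_of_nonneg_left ht hCj))
      have h1 : (fun t => pull (D (t, u)) (B1 (f (t, u)))) =ᵐ[rhoM ε] fun t =>
          ∫ p, pull ((Z.A p (f (t, u))).comp (D (t, u))) (B (Z.F p (f (t, u)))) ∂Z.μ := by
        filter_upwards [hae] with t ht
        rw [← pullC_apply, hB1, ← ContinuousLinearMap.integral_comp_comm]
        · simp only [pullC_apply, pull_comp]
        · exact integrable_bdd ((Z.meas_pull hB).comp (measurable_id.prodMk measurable_const))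
            (Z.pull_bound hM (by linarith) hr1 ht)
      rw [integral_congr_ae h1]
      have hmeas : Measurable fun q : V × Z.P =>
          pull ((Z.A q.2 (f (q.1, u))).comp (D (q.1, u))) (B (Z.F q.2 (f (q.1, u)))) := by
        have hq : Measurable fun q : V × Z.P => (q.2, f (q.1, u)) :=
          measurable_snd.prodMk (hfm.comp (measurable_fst.prodMk measurable_const))
        exact measurable_pull (hcomp.measurable.comp ((Z.measA.comp hq).prodMk
          (hDm.comp (measurable_fst.prodMk measurable_const)))) (hB.comp (Z.measF.comp hq))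
      refine (integral_prod _ (integrable_bdd (K := 72 * (2 : ℝ) ^ 2 * M) hmeas ?_)).symm
      filter_upwards [Measure.quasiMeasurePreserving_fst.ae (ae_small hε),
        Measure.quasiMeasurePreserving_snd.ae Z.good] with q hq1 hq2
      obtain ⟨-, d2, d3⟩ := hstep q.1 (hq1.trans hεδ) u (Metric.cthickening_mono hr2 K hu)
      have d2' := d2.trans (mul_le_mul_of_nonneg_left hq1 hCj)
      obtain ⟨-, -, g3⟩ := hq2 (r + Cj * ε) (by linarith) hr1 _ (mem_nb hr hCjε hu d2')
      have h1 : ‖(1 : V →L[ℝ] V)‖ ≤ 1 := ContinuousLinearMap.norm_id_le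
      have hA : ‖(Z.A q.2 (f (q.1, u))).comp (D (q.1, u))‖ ≤ 2 := by
        refine (ContinuousLinearMap.opNorm_comp_le _ _).trans ?_
        have a1 := norm_le_insert' (Z.A q.2 (f (q.1, u))) 1
        have a2 := norm_le_insert' (D (q.1, u)) 1
        have a3 := d3.trans (mul_le_mul_of_nonneg_left hq1 hCj)
        have a4 : ‖Z.A q.2 (f (q.1, u))‖ * ‖D (q.1, u)‖ ≤ (1 + C * ε) * (1 + Cj * ε) :=
          mul_le_mul (by linarith) (by linarith) (norm_nonneg _) (by linarith)
        rw [hC'] at hsmall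
        nlinarith
      refine (norm_pull_le _ _).trans ?_
      gcongr
      exact hM _

end Vale.Agent.P204.Gen.AvgAux
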